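import Vale.Agent.P194.Core

namespace Vale.Agent.Results.P194.ExtClosure

open Vale.Agent.P194

/-- Let `K` be a commutative ring of prime characteristic `p` (for instance a field), `G` a group
and `N` a normal subgroup of `G` such that every nontrivial finitely generated subgroup of `N`
maps onto the cyclic group of order `p`.  If `K[G/N]` is directly finite then so is `K[G]`, and if
`K[G/N]` is stably finite then so is `K[G]`. -/
theorem result (p : ℕ) [Fact p.Prime] (K : Type*) [CommRing K] [CharP K p]
    (G : Type*) [Group G] (N : Subgroup G) [N.Normal]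
    (hN : ∀ H : Subgroup G, H ≤ N → H.FG → H ≠ ⊥ →
      ∃ f : H →* Multiplicative (ZMod p), Function.Surjective f) :
    (IsDedekindFiniteMonoid (MonoidAlgebra K (G ⧸ N)) →
      IsDedekindFiniteMonoid (MonoidAlgebra K G)) ∧
    (IsStablyFiniteRing (MonoidAlgebra K (G ⧸ N)) →
      IsStablyFiniteRing (MonoidAlgebra K G)) := by
  constructor
  · intro hQ
    refine ⟨fun {a b} hab => ?_⟩
    have hQ' : ∀ A B : Matrix Unit Unit (MonoidAlgebra K (G ⧸ N)), A * B = 1 → B * A = 1 := by
      intro A B hAB
      have h1 : A () () * B () () = 1 := by
        have := congrFun (congrFun hAB ()) ()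
        simpa [Matrix.mul_apply] using this
      have h2 := hQ.mul_eq_one_symm h1
      refine Matrix.ext fun i j => ?_
      cases i
      cases j
      simpa [Matrix.mul_apply] using h2
    have h := matrix_df (p := p) N hN Unit hQ' (Matrix.of fun _ _ => a) (Matrix.of fun _ _ => b)
      (by
        refine Matrix.ext fun i j => ?_
        cases i
        cases j
        simpa [Matrix.mul_apply] using hab)
    have := congrFun (congrFun h ()) ()
    simpa [Matrix.mul_apply] using this
  · intro hQ
    refine ⟨fun n => ⟨fun {A B} hAB => ?_⟩⟩
    exact matrix_df (p := p) N hN (Fin n) (fun A' B' h' => mul_eq_one_symm h') A B hAB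

end Vale.Agent.Results.P194.ExtClosure
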