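import Vale.Agent.P194.Core

namespace Vale.Agent.Results.P194.LocPIndicable

open Vale.Agent.P194

/-- Let `K` be a commutative ring of prime characteristic `p` (for instance a field) and `G` a
group in which every nontrivial finitely generated subgroup maps onto the cyclic group of order
`p`.  Then the group algebra `K[G]` is stably finite. -/
theorem result (p : ℕ) [Fact p.Prime] (K : Type*) [CommRing K] [CharP K p]
    (G : Type*) [Group G]
    (hG : ∀ H : Subgroup G, H.FG → H ≠ ⊥ →
      ∃ f : H →* Multiplicative (ZMod p), Function.Surjective f) :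
    IsStablyFiniteRing (MonoidAlgebra K G) := by
  have hsub : Subsingleton (G ⧸ (⊤ : Subgroup G)) := QuotientGroup.subsingleton_quotient_top
  have hQ : IsStablyFiniteRing (MonoidAlgebra K (G ⧸ (⊤ : Subgroup G))) :=
    (RingEquiv.isStablyFiniteRing_iff
      (MonoidAlgebra.uniqueRingEquiv (R := K) (G ⧸ (⊤ : Subgroup G)))).mpr inferInstance
  refine ⟨fun n => ⟨fun {A B} hAB => ?_⟩⟩
  exact matrix_df (p := p) (⊤ : Subgroup G) (fun H _ h1 h2 => hG H h1 h2) (Fin n)
    (fun A' B' h' => mul_eq_one_symm h') A B hAB

end Vale.Agent.Results.P194.LocPIndicable
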